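import Vale.Agent.P011.H889.C2.DecD
import Vale.Agent.P011.H974.R6D
import Vale.Agent.P011.H706.C2.Conj
import Vale.Agent.P011.H983.TwoBasisGF

/-!
# Module M5: the elements with a trace of odd valuation generate (characteristic two)
-/

open Module

set_option linter.unusedSectionVars false
set_option linter.unusedVariables false

namespace Vale.Agent.P011.H889.C2

open Vale.Agent.P011.H738 Vale.Agent.P011.H271 Vale.Agent.P011.Hey Vale.Agent.P011.H477.C2
open Vale.Agent.P011.H706.C2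
open Vale.Agent.P011.H974.R6 (Ev exists_zpow unif_pos unif_lt)
open Vale.Agent.P011.H973.PF (weakP abv_add_lt abv_sub_lt abv_add_le abv_sub_le' abv_eq_of_sub_lt)

section loc

variable {F : Type} [Field F] [GFF F]

/-- An odd power of the order of the residue field has odd valuation. -/
theorem not_ev_of_abv {v : Place F} {x : F} {m : ℤ} (h : v.abv x = (qq v : ℝ) ^ (2 * m + 1)) :
    ¬ Ev v (algebraMap F v.comp x) := by
  rintro ⟨c, hc, hxc⟩
  obtain ⟨n, hn⟩ := exists_zpow v hc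
  rw [norm_alg, h, hn, norm_alg, abv_unif, inv_zpow, ← zpow_neg, ← zpow_natCast,
    ← zpow_mul] at hxc
  have h1 := zpow_right_injective₀ (qq_pos v) (one_lt_qq' v).ne' hxc
  push_cast at h1
  omega

/-- A global element with prescribed absolute values at finitely many places. -/
theorem exists_abv (R : Finset (Place F)) (m : Place F → ℤ) :
    ∃ c : F, ∀ v ∈ R, v.abv c = (qq v : ℝ) ^ m v := by
  classical
  have hx : ∀ v : Place F, v.abv ((unif v) ^ (-m v)) = (qq v : ℝ) ^ m v := by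
    intro v
    rw [map_zpow₀, abv_unif, inv_zpow, ← zpow_neg, neg_neg]
  obtain ⟨ε, hε, hεR⟩ : ∃ ε : ℝ, 0 < ε ∧ ∀ v ∈ R, ε ≤ (qq v : ℝ) ^ m v := by
    rcases R.eq_empty_or_nonempty with rfl | hne
    · exact ⟨1, one_pos, by simp⟩
    · refine ⟨R.inf' hne fun v => (qq v : ℝ) ^ m v, ?_, fun v hv => ?_⟩
      · rw [Finset.lt_inf'_iff]
        exact fun v _ => zpow_pos (qq_pos v) _
      · exact Finset.inf'_le _ hv
  obtain ⟨c, hc⟩ := weakP R (fun v => (unif v) ^ (-m v)) hε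
  refine ⟨c, fun v hv => ?_⟩
  rw [← hx v]
  refine abv_eq_of_sub_lt v ?_
  rw [hx v]
  exact (hc v hv).trans_le (hεR v hv)

variable (h2 : (2 : F) = 0) {a b : F} (hA : Ani a b)
  (hP : ∀ n : F, ∃ p : Q2 a b, tr p = 0 ∧ nr p = n)

include h2 hA hP

/-- The first factor. -/
theorem exists_fac (R : Finset (Place F)) (hR : ∀ v ∈ R, Ram a b v) (l : Place F → ℤ)
    (hl : ∀ v ∈ R, 1 ≤ l v) :
    ∃ y1 : Q2 a b, nr y1 = 1 ∧ ∀ v ∈ R, v.abv (tr y1) = (qq v : ℝ) ^ (-(2 * l v - 1)) := by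
  obtain ⟨β, hβ⟩ := exists_abv R fun _ => -1
  obtain ⟨w1, hw1, hw1n⟩ := hP β
  obtain ⟨w2, hw2, hw2n⟩ := exists_int_one' h2 hA hP R fun v hv => nr_ultra h2 (hR v hv)
  obtain ⟨lam, hlam⟩ := exists_abv R fun v => -l v
  have htr : tr (w1 + lam • w2) = lam := by
    rw [tr_add', tr_smul', hw1, hw2]
    ring
  have hnr : ∀ v ∈ R, v.abv (nr (w1 + lam • w2)) = (qq v : ℝ) ^ (-1 : ℤ) := by
    intro v hv
    have hq := one_lt_qq' v
    rw [nr_ultra_eq h2 (hR v hv), hw1n, hβ v hv]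
    rw [hw1n, hβ v hv, nr_smul', map_mul, map_pow, hlam v hv]
    have h1 : ((qq v : ℝ) ^ (-l v)) ^ 2 ≤ (qq v : ℝ) ^ (-2 : ℤ) := by
      rw [← zpow_natCast, ← zpow_mul]
      apply zpow_le_zpow_right₀ hq.le
      have := hl v hv
      push_cast
      linarith
    calc ((qq v : ℝ) ^ (-l v)) ^ 2 * v.abv (nr w2) ≤ (qq v : ℝ) ^ (-2 : ℤ) * 1 :=
          mul_le_mul h1 (hw2n v hv) (v.abv.nonneg _) (zpow_nonneg (qq_pos v).le _)
      _ = (qq v : ℝ) ^ (-2 : ℤ) := mul_one _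
      _ < (qq v : ℝ) ^ (-1 : ℤ) := zpow_lt_zpow_right₀ hq (by norm_num)
  by_cases h0 : nr (w1 + lam • w2) = 0
  · -- only possible if `R` is empty
    have hRe : ∀ v, v ∉ R := by
      intro v hv
      have h1 := hnr v hv
      rw [h0, map_zero] at h1
      exact (zpow_pos (qq_pos v) (-1 : ℤ)).ne h1
    exact ⟨1, nr_one', fun v hv => absurd hv (hRe v)⟩
  · refine ⟨(nr (w1 + lam • w2))⁻¹ • ((w1 + lam • w2) * (w1 + lam • w2)), ?_, fun v hv => ?_⟩
    · rw [nr_smul', nr_mul']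
      field_simp
    · rw [tr_smul', tr_sq' h2, htr, map_mul, map_inv₀, hnr v hv, map_pow, hlam v hv, ← zpow_neg,
        ← zpow_natCast, ← zpow_mul, ← zpow_add₀ (qq_pos v).ne']
      congr 1
      push_cast
      ring

/-- **Module M5** with the input (P) as a hypothesis. -/
theorem exists_dec' (R : Finset (Place F)) (hR : ∀ v ∈ R, Ram a b v) {y : Q2 a b}
    (hy : nr y = 1) (hy1 : y ≠ 1) (hlt : ∀ v ∈ R, v.abv (tr y) < 1) :
    ∃ y1 y2 : Q2 a b, nr y1 = 1 ∧ nr y2 = 1 ∧ y = y1 * y2 ∧ ∀ v ∈ R,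
      (¬ Ev v (algebraMap F v.comp (tr y1)) ∧ v.abv (tr y1) < 1 ∧
        ∀ c : F, v.abv (tr y) < v.abv c → v.abv (tr y1) ≤ v.abv c) ∧
      (¬ Ev v (algebraMap F v.comp (tr y2)) ∧ v.abv (tr y2) < 1 ∧
        ∀ c : F, v.abv (tr y) < v.abv c → v.abv (tr y2) ≤ v.abv c) := by
  classical
  have ht0 : tr y ≠ 0 := by
    intro h
    rw [← nr_sub_one h2 hy] at h
    exact hy1 (sub_eq_zero.mp (hA _ h))
  -- the exponents
  obtain ⟨m, hm⟩ : ∃ m : Place F → ℤ, ∀ v, v.abv (tr y) = (qq v : ℝ) ^ m v :=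
    ⟨fun v => (exists_eq_zpow v ht0).choose, fun v => (exists_eq_zpow v ht0).choose_spec⟩
  have hm1 : ∀ v ∈ R, m v ≤ -1 := by
    intro v hv
    have h1 := hlt v hv
    rw [hm v] at h1
    by_contra hcon
    have h3 : 0 ≤ m v := by omega
    exact absurd h1 (not_lt.mpr (one_le_zpow₀ (one_lt_qq' v).le h3))
  obtain ⟨y1, hy1n, hy1t⟩ := exists_fac h2 hA hP R hR
    (fun v => if Even (m v) then -(m v) / 2 else (-(m v) + 3) / 2) (by
      intro v hv
      have h1 := hm1 v hv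
      by_cases he : Even (m v)
      · rw [if_pos he]
        obtain ⟨r, hr⟩ := he
        omega
      · rw [if_neg he]
        omega)
  have hst : nr (star y1) = 1 := by rw [nr_star', hy1n]
  have hy2n : nr (star y1 * y) = 1 := by rw [nr_mul', hst, hy, one_mul]
  have hyy : y = y1 * (star y1 * y) := by
    rw [← mul_assoc, mul_star', hy1n, one_smul, one_mul]
  -- the trace of the second factor
  have htr2 : tr (star y1 * y) = nr (y + (-1 : F) • y1) := by
    rw [← nr_sub_one h2 hy2n]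
    have e : star y1 * y - 1 = star y1 * (y + (-1 : F) • y1) := by
      rw [mul_add, mul_smul_comm, star_mul'', hy1n, one_smul, neg_smul, one_smul,
        ← sub_eq_add_neg]
    rw [e, nr_mul', hst, one_mul]
  have e3 : y + (-1 : F) • y1 = (y - 1) + (-1 : F) • (y1 - 1) := by
    rw [neg_smul, one_smul, neg_smul, one_smul]
    abel
  have e4 : (y - 1) + (-1 : F) • (y1 - 1) = (-1 : F) • (y1 - 1) + (y - 1) := add_comm _ _
  have hn1 : nr ((-1 : F) • (y1 - 1)) = tr y1 := by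
    rw [nr_smul', nr_sub_one h2 hy1n]
    ring
  have hn2 : nr (y - 1) = tr y := nr_sub_one h2 hy
  refine ⟨y1, star y1 * y, hy1n, hy2n, hyy, fun v hv => ?_⟩
  have hq := one_lt_qq' v
  have h1 := hm1 v hv
  have ht1 := hy1t v hv
  by_cases he : Even (m v)
  · obtain ⟨r, hr⟩ := he
    have e5 : -(2 * (if Even (m v) then -(m v) / 2 else (-(m v) + 3) / 2) - 1) =
        2 * r + 1 := by
      rw [if_pos ⟨r, hr⟩]
      omega
    rw [e5] at ht1
    have hlt1 : v.abv (tr y) < v.abv (tr y1) := by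
      rw [ht1, hm v]
      exact zpow_lt_zpow_right₀ hq (by omega)
    have ht2 : v.abv (tr (star y1 * y)) = v.abv (tr y1) := by
      rw [htr2, e3, e4, nr_ultra_eq h2 (hR v hv) (by rw [hn1, hn2]; exact hlt1), hn1]
    have hle : ∀ c : F, v.abv (tr y) < v.abv c → v.abv (tr y1) ≤ v.abv c := by
      intro c hc
      have hc0 : c ≠ 0 := by
        rintro rfl
        rw [map_zero] at hc
        exact absurd hc (not_lt.mpr (v.abv.nonneg _))
      obtain ⟨n, hn⟩ := exists_eq_zpow v hc0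
      rw [hm v, hn] at hc
      have h5 := (zpow_lt_zpow_iff_right₀ hq).mp hc
      rw [ht1, hn]
      exact zpow_le_zpow_right₀ hq.le (by omega)
    have hlt3 : v.abv (tr y1) < 1 := by
      rw [ht1]
      exact zpow_lt_one_of_neg₀ hq (by omega)
    refine ⟨⟨not_ev_of_abv ht1, hlt3, hle⟩, not_ev_of_abv (by rw [ht2, ht1]), ?_, ?_⟩
    · rw [ht2]
      exact hlt3
    · intro c hc
      rw [ht2]
      exact hle c hc
  · have hodd : ∃ r, m v = 2 * r + 1 := by
      rcases Int.even_or_odd (m v) with h | h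
      · exact absurd h he
      · exact h
    obtain ⟨r, hr⟩ := hodd
    have e5 : -(2 * (if Even (m v) then -(m v) / 2 else (-(m v) + 3) / 2) - 1) =
        2 * (r - 1) + 1 := by
      rw [if_neg he]
      omega
    rw [e5] at ht1
    have hlt1 : v.abv (tr y1) < v.abv (tr y) := by
      rw [ht1, hm v]
      exact zpow_lt_zpow_right₀ hq (by omega)
    have ht2 : v.abv (tr (star y1 * y)) = v.abv (tr y) := by
      rw [htr2, e3, nr_ultra_eq h2 (hR v hv) (by rw [hn1, hn2]; exact hlt1), hn2]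
    refine ⟨⟨not_ev_of_abv ht1, hlt1.trans (hlt v hv), fun c hc => (hlt1.trans hc).le⟩,
      not_ev_of_abv (m := r) (by rw [ht2, hm v, hr]), ?_, ?_⟩
    · rw [ht2]
      exact hlt v hv
    · intro c hc
      rw [ht2]
      exact hc.le

end loc

/-- **Module M5 (DEC).** -/
theorem exists_dec {F : Type} [Field F] [GFF F] (h2 : (2 : F) = 0) {a b : F} (hA : Ani a b)
    (R : Finset (Place F)) (hR : ∀ v ∈ R, Ram a b v) {y : Q2 a b}
    (hy : nr y = 1) (hy1 : y ≠ 1) (hlt : ∀ v ∈ R, v.abv (tr y) < 1) :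
    ∃ y1 y2 : Q2 a b, nr y1 = 1 ∧ nr y2 = 1 ∧ y = y1 * y2 ∧ ∀ v ∈ R,
      (¬ Ev v (algebraMap F v.comp (tr y1)) ∧ v.abv (tr y1) < 1 ∧
        ∀ c : F, v.abv (tr y) < v.abv c → v.abv (tr y1) ≤ v.abv c) ∧
      (¬ Ev v (algebraMap F v.comp (tr y2)) ∧ v.abv (tr y2) < 1 ∧
        ∀ c : F, v.abv (tr y) < v.abv c → v.abv (tr y2) ≤ v.abv c) := by
  have hb : b ≠ 0 := by
    rintro rfl
    have h := hA ⟨0, 0, 1, 0⟩ (by simp [nr, nf])
    have h1 := congrArg QuaternionAlgebra.imJ h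
    simp at h1
  refine exists_dec' h2 hA (fun n => ?_) R hR hy hy1 hlt
  obtain ⟨X, hX⟩ := Vale.Agent.P011.H983.exists_twoBasis_gff (k := F) inferInstance h2
  obtain ⟨p, h0, hn, -⟩ := exists_p h2 hX.ex hb n
  exact ⟨p, h0, hn⟩

end Vale.Agent.P011.H889.C2
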