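import Vale.Agent.P011.H961.R5TwoLoc
import Vale.Agent.P011.H73.Sp2
import Vale.Agent.P011.H706.C2.HQDef
import Vale.Agent.P011.H698.Bd
import Vale.Agent.P011.H738.Atl.Near

/-!
Characteristic two: the quotients `z / τ z` of a maximal subfield of the centralizer belong to the
subgroup as soon as `z` is close to one above a finite set of places.
-/

open Module

set_option linter.unusedSectionVars false

namespace Vale.Agent.P011.H889.C2

open Vale.Agent.P011.H738 Vale.Agent.P011.H738.Atl Vale.Agent.P011.H271 Vale.Agent.P011.H698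
open Vale.Agent.P011.H271.S3 (Ab)
open Vale.Agent.P011.H73
open Vale.Agent.P011.H477.C2 Vale.Agent.P011.H706.C2
open Vale.Agent.P011.H973.PF

section lin

variable {k A M : Type} [Field k] [GFF k] [AddCommGroup A] [Module k A] [Field M] [GFF M]
  [Algebra k M] [FiniteDimensional k M] [Algebra.IsSeparable k M] {N : ℕ} (B : Basis (Fin N) k A)

/-- Linear maps are continuous for the topology given by the places above `v`. -/
theorem sm_of_above (Λ : M →ₗ[k] A) (v : Place k) {ε : ℝ} (hε : 0 < ε) :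
    ∃ η : ℝ, 0 < η ∧ ∀ x : M, (∀ w : Place M, Ab w v → w.abv x < η) → Sm B v ε (Λ x) := by
  classical
  let c := Module.finBasis k M
  obtain ⟨C, hC⟩ : ∃ C : ℝ, C = 1 + ∑ i, ∑ l, v.abv (B.repr (Λ (c i)) l) := ⟨_, rfl⟩
  have hs : 0 ≤ ∑ i, ∑ l, v.abv (B.repr (Λ (c i)) l) :=
    Finset.sum_nonneg fun _ _ => Finset.sum_nonneg fun _ _ => v.abv.nonneg _
  have hC0 : 0 < C := by linarith
  have hCi : ∀ i l, v.abv (B.repr (Λ (c i)) l) < C := by
    intro i l
    have h1 : v.abv (B.repr (Λ (c i)) l) ≤ ∑ l, v.abv (B.repr (Λ (c i)) l) :=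
      Finset.single_le_sum (f := fun l => v.abv (B.repr (Λ (c i)) l))
        (fun _ _ => v.abv.nonneg _) (Finset.mem_univ l)
    have h2 : ∑ l, v.abv (B.repr (Λ (c i)) l) ≤ ∑ i, ∑ l, v.abv (B.repr (Λ (c i)) l) :=
      Finset.single_le_sum (f := fun i => ∑ l, v.abv (B.repr (Λ (c i)) l))
        (fun _ _ => Finset.sum_nonneg fun _ _ => v.abv.nonneg _) (Finset.mem_univ i)
    linarith
  obtain ⟨η, hη⟩ := Sp.coord_small (E := M) c v (γ := ε / C) (div_pos hε hC0)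
  have hfin := Sp.above_finite (E := M) v
  obtain ⟨μ, hμ0, hμ⟩ : ∃ μ : ℝ, 0 < μ ∧ ∀ w : Place M, Ab w v →
      μ ≤ w.abv (algebraMap k M η) := by
    have hpos : ∀ w : Place M, 0 < w.abv (algebraMap k M η) := fun w =>
      w.abv.pos (by rw [ne_eq, map_eq_zero]; exact η.ne_zero)
    rcases hfin.toFinset.eq_empty_or_nonempty with he | hne
    · refine ⟨1, one_pos, fun w hw => ?_⟩
      have : w ∈ hfin.toFinset := hfin.mem_toFinset.mpr hw
      rw [he] at this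
      exact absurd this (Finset.notMem_empty _)
    · exact ⟨hfin.toFinset.inf' hne fun w => w.abv (algebraMap k M η),
        (Finset.lt_inf'_iff _).mpr fun w _ => hpos w,
        fun w hw => Finset.inf'_le _ (hfin.mem_toFinset.mpr hw)⟩
  refine ⟨μ, hμ0, fun x hx l => ?_⟩
  have h1 : Λ x = ∑ i, c.repr x i • Λ (c i) := by
    conv_lhs => rw [← c.sum_repr x]
    rw [map_sum]
    exact Finset.sum_congr rfl fun i _ => map_smul _ _ _
  rw [h1, map_sum, Finsupp.finsetSum_apply]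
  refine Sp.sum_lt v _ _ hε fun i _ => ?_
  rw [map_smul, Finsupp.smul_apply, smul_eq_mul, map_mul]
  have h2 : v.abv (c.repr x i) < ε / C := hη x (fun w hw => (hx w hw).trans_le (hμ w hw)) i
  have h3 := (hCi i l).le
  calc v.abv (c.repr x i) * v.abv (B.repr (Λ (c i)) l) ≤ v.abv (c.repr x i) * C :=
        mul_le_mul_of_nonneg_left h3 (v.abv.nonneg _)
    _ < ε := by rwa [lt_div_iff₀ hC0] at h2

/-- The same, at finitely many places. -/
theorem sm_of_nrF (Λ : M →ₗ[k] A) (S : Finset (Place k)) {ε : ℝ} (hε : 0 < ε) :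
    ∃ η : ℝ, 0 < η ∧ ∀ x : M, NrF (S : Set (Place k)) η x → ∀ v ∈ S, Sm B v ε (Λ (x - 1)) := by
  classical
  choose η hη0 hη using fun v : Place k => sm_of_above B Λ v hε
  obtain ⟨μ, hμ0, hμ⟩ : ∃ μ : ℝ, 0 < μ ∧ ∀ v ∈ S, μ ≤ η v := by
    rcases S.eq_empty_or_nonempty with he | hne
    · refine ⟨1, one_pos, fun w hw => ?_⟩
      rw [he] at hw
      exact absurd hw (Finset.notMem_empty _)
    · exact ⟨S.inf' hne η, (Finset.lt_inf'_iff _).mpr fun w _ => hη0 w,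
        fun w hw => Finset.inf'_le _ hw⟩
  exact ⟨μ, hμ0, fun x hx v hv => hη v _ fun w hw => (hx v hv w hw).trans_le (hμ v hv)⟩

end lin

section aut

variable {k M : Type} [Field k] [Field M] [Algebra k M]

theorem ab_conj (σ : M ≃ₐ[k] M) {w : Place M} {v : Place k} (hw : Ab w v) :
    Ab (conjP σ w) v := by
  obtain ⟨c, hc, h2⟩ := hw
  refine ⟨c, hc, fun x => ?_⟩
  rw [conjP_abv, AlgEquiv.commutes, h2]

theorem NrF.aut (σ : M ≃ₐ[k] M) {S : Set (Place k)} {ε : ℝ} {x : M} (hx : NrF S ε x) :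
    NrF S ε (σ x) := by
  intro v hv w hw
  have h1 := hx v hv _ (ab_conj σ hw)
  rwa [conjP_abv, map_sub, map_one] at h1

end aut

section close

variable {k A : Type} [Field k] [GFF k] [Ring A] [StarRing A] [Algebra k A] {N : ℕ}
  (B : Basis (Fin N) k A) {F : Type} [Field F] [GFF F] [Algebra k F] {ι : F →ₐ[k] A} {α β : F}
  {i j : A} {M : Type} [Field M] [GFF M] [Algebra k M] [FiniteDimensional k M]
  [Algebra.IsSeparable k M]

/-- **The quotients `z / τ z` belong to the subgroup.** -/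
theorem close_mem' (h2 : (2 : k) = 0) (Ψ : M →ₐ[k] A) (τ : M ≃ₐ[k] M) (hτ : ∀ x, τ (τ x) = x)
    (φ : F →ₐ[k] M)
    (hrep : ∀ u : M, u * τ u = 1 → ∃ p0 p1 : F,
      QEltF2 ι α β i j p0 p1 0 0 (Ψ u) ∧ φ p1 = u + u⁻¹)
    {Q : Set A} {T : Finset (Place k)} {ε : ℝ} (hε : 0 < ε) (hQ : HQ1F2 k B T ε Q)
    (S0 : Finset (Place k)) {ε0 : ℝ} (hε0 : 0 < ε0) :
    ∃ η : ℝ, 0 < η ∧ ∀ S : Set (Place k), (T : Set (Place k)) ⊆ S → (S0 : Set (Place k)) ⊆ S →
      (∀ ω : Place F, Ram α β ω → ∀ v : Place k, Ab ω v → v ∈ S) →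
      ∀ z : M, z ≠ 0 → NrF S η z →
        (z * (τ z)⁻¹) * τ (z * (τ z)⁻¹) = 1 ∧ Ψ (z * (τ z)⁻¹) ∈ Q ∧
          (∀ v ∈ S0, Sm B v ε0 (Ψ (z * (τ z)⁻¹) - 1)) ∧ NrF S η (z * (τ z)⁻¹) := by
  classical
  obtain ⟨η1, hη1, h1⟩ := sm_of_nrF B (Ψ : M →ₐ[k] A).toLinearMap T hε
  obtain ⟨η0, hη0, h0⟩ := sm_of_nrF B (Ψ : M →ₐ[k] A).toLinearMap S0 hε0
  refine ⟨min 1 (min η1 η0), lt_min one_pos (lt_min hη1 hη0), ?_⟩
  intro S hTS hS0S hram z hz hzn
  have hle : min 1 (min η1 η0) ≤ 1 := min_le_left _ _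
  have hτz : τ z ≠ 0 := (_root_.map_ne_zero τ).mpr hz
  have hu1 : (z * (τ z)⁻¹) * τ (z * (τ z)⁻¹) = 1 := by
    rw [map_mul, map_inv₀, hτ]
    field_simp
  have hun : NrF S (min 1 (min η1 η0)) (z * (τ z)⁻¹) :=
    hzn.mul hle ((NrF.aut τ hzn).inv hle)
  obtain ⟨u, hu⟩ : ∃ u : M, u = z * (τ z)⁻¹ := ⟨_, rfl⟩
  rw [← hu] at hu1 hun ⊢
  obtain ⟨p0, p1, hq, hp⟩ := hrep u hu1
  refine ⟨hu1, hQ F ι α β i j p0 p1 0 0 (Ψ u) hq ?_ ?_, ?_, hun⟩
  · intro ω hω
    let _ : Algebra F M := (φ : F →+* M).toAlgebra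
    have hFM : ∀ y : F, algebraMap F M y = φ y := fun y => rfl
    have htow : IsScalarTower k F M := IsScalarTower.of_algebraMap_eq fun c => by
      rw [hFM, AlgHom.commutes]
    have halg : Algebra.IsAlgebraic k M := Algebra.IsAlgebraic.of_finite k M
    have halgF : Algebra.IsAlgebraic F M := Algebra.IsAlgebraic.tower_top (K := k) F
    have halgk : Algebra.IsAlgebraic k F := Algebra.IsAlgebraic.tower_bot k F M
    obtain ⟨w, hw⟩ := H511.FF.exists_above_ab (K := M) ω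
    obtain ⟨v, hv⟩ := H511.FF.exists_below_ab (k := k) ω
    have hwv : Ab w v := H511.FF.ab_trans hw hv
    have hvS : v ∈ S := hram ω hω v hv
    have g1 := (hun v hvS w hwv).trans_le hle
    have g2 := (hun.inv hle v hvS w hwv).trans_le hle
    have h2M : (2 : M) = 0 := by
      rw [← map_ofNat (algebraMap k M) 2, h2, map_zero]
    have e1 : u + u⁻¹ = (u - 1) + (u⁻¹ - 1) := by linear_combination h2M
    have g3 : w.abv (algebraMap F M p1) < w.abv (algebraMap F M 1) := by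
      rw [map_one, map_one, hFM, hp, e1]
      exact (w.nonarch _ _).trans_lt (max_lt g1 g2)
    have g4 := (H511.FF.ab_lt_iff hw _ _).mp g3
    rwa [map_one] at g4
  · intro v hv
    have g1 := h1 u (hun.mono hTS ((min_le_right _ _).trans (min_le_left _ _))) v hv
    have e1 : (Ψ : M →ₐ[k] A).toLinearMap (u - 1) = Ψ u - 1 := by
      rw [AlgHom.toLinearMap_apply, map_sub, map_one]
    rw [e1] at g1
    exact g1
  · intro v hv
    have g1 := h0 u (hun.mono hS0S ((min_le_right _ _).trans (min_le_right _ _))) v hv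
    have e1 : (Ψ : M →ₐ[k] A).toLinearMap (u - 1) = Ψ u - 1 := by
      rw [AlgHom.toLinearMap_apply, map_sub, map_one]
    rwa [e1] at g1

/-- The same, in the letters of the tower lemma. -/
theorem close_mem (h2 : (2 : k) = 0) (Ψ : M →ₐ[k] A) (τ : M ≃ₐ[k] M) (hτ : ∀ x, τ (τ x) = x)
    (φ : F →ₐ[k] M)
    (hrep : ∀ u : M, u * τ u = 1 → ∃ p0 p1 : F,
      QEltF2 ι α β i j p0 p1 0 0 (Ψ u) ∧ φ p1 = u + u⁻¹)
    {Q : Set A} {T : Finset (Place k)} {ε : ℝ} (hε : 0 < ε) (hQ : HQ1F2 k B T ε Q)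
    (S0 : Finset (Place k)) {ε0 : ℝ} (hε0 : 0 < ε0) :
    ∀ S' : Set (Place k), S'.Finite → (T : Set (Place k)) ⊆ S' → (S0 : Set (Place k)) ⊆ S' →
      (∀ ω : Place F, Ram α β ω → ∀ v : Place k, Ab ω v → v ∈ S') →
      ∃ δ : ℝ, 0 < δ ∧ ∀ z : M, z ≠ 0 → NrF S' δ z →
        Ψ (z * (τ z)⁻¹) ∈ Q ∧ ∀ v ∈ S0, Sm B v ε0 (Ψ (z * (τ z)⁻¹) - 1) := by
  obtain ⟨η, hη, h⟩ := close_mem' B h2 Ψ τ hτ φ hrep hε hQ S0 hε0
  intro S' _ h3 h4 h5
  refine ⟨η, hη, fun z hz hzn => ?_⟩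
  obtain ⟨-, h6, h7, -⟩ := h S' h3 h4 h5 z hz hzn
  exact ⟨h6, h7⟩

/-- The places below the ramified ones are finite in number. -/
theorem ram_below_finite [Algebra.IsAlgebraic k F] (h2 : (2 : k) = 0) (hβ : β ≠ 0) :
    {v : Place k | ∃ ω : Place F, Ram α β ω ∧ Ab ω v}.Finite := by
  have h2F : (2 : F) = 0 := by
    rw [← map_ofNat (algebraMap k F) 2, h2, map_zero]
  have h1 : {ω : Place F | Ram α β ω}.Finite := by
    refine (H961.C2.bad_finite h2F α hβ).subset fun ω hω h => hω ?_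
    obtain ⟨x, y, hxy⟩ := h
    exact ⟨x, y, hxy⟩
  refine (H271.S3.finite_below (k := k) h1).subset ?_
  rintro v ⟨ω, hω, hv⟩
  exact ⟨ω, hω, hv⟩

end close

end Vale.Agent.P011.H889.C2
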