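import Vale.Agent.P011.H706.C2.HQDef
import Vale.Agent.P011.H973.QuadPl

/-!
# Elements of trace one with integral norm (step C of module M5, characteristic two)

Global function fields of characteristic two: the quaternion algebra `Q2 a b`, its reduced norm
and trace, and elements `w` with `tr w = 1` and `|nr w|_v ≤ 1` at finitely many places.
-/

open Module

set_option linter.unusedSectionVars false
set_option linter.unusedVariables false

namespace Vale.Agent.P011.H889.C2

open Vale.Agent.P011.H738 Vale.Agent.P011.H271 Vale.Agent.P011.Hey Vale.Agent.P011.H477.C2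
open Vale.Agent.P011.H706.C2
open Vale.Agent.P011.H973.PF (weakP abv_add_lt abv_sub_lt abv_add_le abv_sub_le' abv_eq_of_sub_lt)

section alg

variable {F : Type} [Field F] {a b : F}

theorem nr_mul' (x y : Q2 a b) : nr (x * y) = nr x * nr y := by
  simp only [nr, nf, QuaternionAlgebra.re_mul, QuaternionAlgebra.imI_mul,
    QuaternionAlgebra.imJ_mul, QuaternionAlgebra.imK_mul]
  ring

theorem nr_one' : nr (1 : Q2 a b) = 1 := by
  simp [nr, nf]

theorem nr_zero' : nr (0 : Q2 a b) = 0 := by
  simp [nr, nf]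

theorem nr_smul' (c : F) (x : Q2 a b) : nr (c • x) = c ^ 2 * nr x := by
  simp only [nr, nf, QuaternionAlgebra.re_smul, QuaternionAlgebra.imI_smul,
    QuaternionAlgebra.imJ_smul, QuaternionAlgebra.imK_smul, smul_eq_mul]
  ring

theorem tr_add' (x y : Q2 a b) : tr (x + y) = tr x + tr y := by
  simp only [tr, QuaternionAlgebra.re_add, QuaternionAlgebra.imI_add]
  ring

theorem tr_smul' (c : F) (x : Q2 a b) : tr (c • x) = c * tr x := by
  simp only [tr, QuaternionAlgebra.re_smul, QuaternionAlgebra.imI_smul, smul_eq_mul]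
  ring

theorem nr_add' (x y : Q2 a b) : nr (x + y) = nr x + nr y + tr (x * star y) := by
  simp only [nr, nf, tr, QuaternionAlgebra.re_mul, QuaternionAlgebra.imI_mul,
    QuaternionAlgebra.re_add, QuaternionAlgebra.imI_add, QuaternionAlgebra.imJ_add,
    QuaternionAlgebra.imK_add, QuaternionAlgebra.re_star, QuaternionAlgebra.imI_star,
    QuaternionAlgebra.imJ_star, QuaternionAlgebra.imK_star]
  ring

theorem nr_star' (x : Q2 a b) : nr (star x) = nr x := by
  simp only [nr, nf, QuaternionAlgebra.re_star, QuaternionAlgebra.imI_star,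
    QuaternionAlgebra.imJ_star, QuaternionAlgebra.imK_star]
  ring

theorem mul_star' (x : Q2 a b) : x * star x = nr x • (1 : Q2 a b) := by
  ext <;> simp only [nr, nf, QuaternionAlgebra.re_mul, QuaternionAlgebra.imI_mul,
    QuaternionAlgebra.imJ_mul, QuaternionAlgebra.imK_mul, QuaternionAlgebra.re_star,
    QuaternionAlgebra.imI_star, QuaternionAlgebra.imJ_star, QuaternionAlgebra.imK_star,
    QuaternionAlgebra.re_smul, QuaternionAlgebra.imI_smul, QuaternionAlgebra.imJ_smul,
    QuaternionAlgebra.imK_smul, QuaternionAlgebra.re_one, QuaternionAlgebra.imI_one,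
    QuaternionAlgebra.imJ_one, QuaternionAlgebra.imK_one, smul_eq_mul] <;> ring

theorem star_mul'' (x : Q2 a b) : star x * x = nr x • (1 : Q2 a b) := by
  ext <;> simp only [nr, nf, QuaternionAlgebra.re_mul, QuaternionAlgebra.imI_mul,
    QuaternionAlgebra.imJ_mul, QuaternionAlgebra.imK_mul, QuaternionAlgebra.re_star,
    QuaternionAlgebra.imI_star, QuaternionAlgebra.imJ_star, QuaternionAlgebra.imK_star,
    QuaternionAlgebra.re_smul, QuaternionAlgebra.imI_smul, QuaternionAlgebra.imJ_smul,
    QuaternionAlgebra.imK_smul, QuaternionAlgebra.re_one, QuaternionAlgebra.imI_one,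
    QuaternionAlgebra.imJ_one, QuaternionAlgebra.imK_one, smul_eq_mul] <;> ring

theorem tr_one' (h2 : (2 : F) = 0) : tr (1 : Q2 a b) = 0 := by
  simp [tr, h2]

/-- Characteristic two. -/
theorem tr_sq' (h2 : (2 : F) = 0) (x : Q2 a b) : tr (x * x) = tr x ^ 2 := by
  simp only [tr, QuaternionAlgebra.re_mul, QuaternionAlgebra.imI_mul, h2]
  linear_combination (x.re * x.imI) * h2

theorem nr_sub_one (h2 : (2 : F) = 0) {x : Q2 a b} (hx : nr x = 1) : nr (x - 1) = tr x := by
  have h : nr (x - 1) = nr x + 1 - tr x := by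
    simp only [nr, nf, tr, QuaternionAlgebra.re_sub, QuaternionAlgebra.imI_sub,
      QuaternionAlgebra.imJ_sub, QuaternionAlgebra.imK_sub, QuaternionAlgebra.re_one,
      QuaternionAlgebra.imI_one, QuaternionAlgebra.imJ_one, QuaternionAlgebra.imK_one]
    ring
  rw [h, hx]
  linear_combination (1 - tr x) * h2

/-- The element of trace one. -/
theorem exists_tr_one : ∃ w : Q2 a b, tr w = 1 :=
  ⟨⟨0, 1, 0, 0⟩, by simp [tr]⟩

theorem star_of_tr {p : Q2 a b} (h2 : (2 : F) = 0) (h : tr p = 0) : star p = p := by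
  have h1 : p.imI = 0 := by
    simp only [tr, h2, zero_mul, zero_add] at h
    exact h
  have h3 : ∀ x : F, -x = x := fun x => by linear_combination (-x) * h2
  ext
  · simp [h1]
  · simp [h1]
  · simp only [QuaternionAlgebra.imJ_star]
    exact h3 _
  · simp only [QuaternionAlgebra.imK_star]
    exact h3 _

end alg

section loc

variable {F : Type} [Field F] [GFF F] (h2 : (2 : F) = 0) {a b : F} (hA : Ani a b)
  (hP : ∀ n : F, ∃ p : Q2 a b, tr p = 0 ∧ nr p = n)

include h2 hA hP

/-- **(C)** at one place: an element of trace one with integral norm. -/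
theorem exists_int_one (v : Place F) : ∃ w : Q2 a b, tr w = 1 ∧ v.abv (nr w) ≤ 1 := by
  classical
  by_contra hcon
  push Not at hcon
  have hq := one_lt_qq' v
  have hex : ∃ m : ℕ, ∃ w : Q2 a b, tr w = 1 ∧ v.abv (nr w) = (qq v : ℝ) ^ m := by
    obtain ⟨w, hw⟩ := exists_tr_one (F := F) (a := a) (b := b)
    have h1 := hcon w hw
    have h0 : nr w ≠ 0 := by
      intro h
      rw [h, map_zero] at h1
      exact absurd h1 (by norm_num)
    obtain ⟨m, hm⟩ := exists_eq_zpow v h0
    rw [hm] at h1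
    have h3 : 0 < m := by
      by_contra hcon2
      exact absurd h1 (not_lt.mpr (zpow_le_one_of_nonpos₀ hq.le (not_lt.mp hcon2)))
    refine ⟨m.toNat, w, hw, ?_⟩
    rw [hm, ← zpow_natCast, Int.toNat_of_nonneg h3.le]
  obtain ⟨w, hw, hwm⟩ := Nat.find_spec hex
  have hmin : ∀ z : Q2 a b, tr z = 1 → v.abv (nr w) ≤ v.abv (nr z) := by
    intro z hz
    have h1 := hcon z hz
    have h0 : nr z ≠ 0 := by
      intro h
      rw [h, map_zero] at h1
      exact absurd h1 (by norm_num)
    obtain ⟨m, hm⟩ := exists_eq_zpow v h0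
    rw [hm] at h1
    have h3 : 0 < m := by
      by_contra hcon2
      exact absurd h1 (not_lt.mpr (zpow_le_one_of_nonpos₀ hq.le (not_lt.mp hcon2)))
    have h4 : v.abv (nr z) = (qq v : ℝ) ^ m.toNat := by
      rw [hm, ← zpow_natCast, Int.toNat_of_nonneg h3.le]
    rw [hwm, h4]
    exact pow_le_pow_right₀ hq.le (Nat.find_min' hex ⟨z, hz, h4⟩)
  have hn1 := hcon w hw
  obtain ⟨p, hp0, hpn⟩ := hP (nr w)
  obtain ⟨e, he⟩ : ∃ e, e = tr (w * p) := ⟨_, rfl⟩
  have hsum : nr (w + p) = e := by
    rw [nr_add', hpn, star_of_tr h2 hp0, he]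
    linear_combination (nr w) * h2
  have hle := hmin (w + p) (by rw [tr_add', hp0, hw, add_zero])
  rw [hsum] at hle
  have he0 : e ≠ 0 := by
    rintro h
    rw [h, map_zero] at hle
    linarith
  have hep : 0 < v.abv e := v.abv.pos he0
  have hle2 := hmin (e⁻¹ • (w * p)) (by rw [tr_smul', ← he, inv_mul_cancel₀ he0])
  rw [nr_smul', nr_mul', hpn, map_mul, map_mul, map_pow, map_inv₀] at hle2
  have hnp : 0 < v.abv (nr w) := by linarith
  have h5 : v.abv e ^ 2 ≤ v.abv (nr w) := by
    have h6 : v.abv (nr w) * 1 ≤ v.abv (nr w) * ((v.abv e)⁻¹ ^ 2 * v.abv (nr w)) := by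
      rw [mul_one]
      calc v.abv (nr w) ≤ (v.abv e)⁻¹ ^ 2 * (v.abv (nr w) * v.abv (nr w)) := hle2
        _ = v.abv (nr w) * ((v.abv e)⁻¹ ^ 2 * v.abv (nr w)) := by ring
    have h7 := le_of_mul_le_mul_left h6 hnp
    have h8 : v.abv e ^ 2 * 1 ≤ v.abv e ^ 2 * ((v.abv e)⁻¹ ^ 2 * v.abv (nr w)) :=
      mul_le_mul_of_nonneg_left h7 (by positivity)
    rw [mul_one] at h8
    calc v.abv e ^ 2 ≤ v.abv e ^ 2 * ((v.abv e)⁻¹ ^ 2 * v.abv (nr w)) := h8
      _ = v.abv (nr w) := by field_simp
  nlinarith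

/-- **(C)** at finitely many ramified places. -/
theorem exists_int_one' (R : Finset (Place F))
    (hU : ∀ v ∈ R, ∀ x y : Q2 a b, v.abv (nr (x + y)) ≤ max (v.abv (nr x)) (v.abv (nr y))) :
    ∃ w : Q2 a b, tr w = 1 ∧ ∀ v ∈ R, v.abv (nr w) ≤ 1 := by
  classical
  induction R using Finset.induction_on with
  | empty =>
    obtain ⟨w, hw⟩ := exists_tr_one (F := F) (a := a) (b := b)
    exact ⟨w, hw, by simp⟩
  | insert v R hv ih =>
    obtain ⟨w, hw, hwR⟩ := ih fun u hu => hU u (Finset.mem_insert_of_mem hu)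
    obtain ⟨z, hz, hzv⟩ := exists_int_one h2 hA hP v
    -- the bound
    obtain ⟨M, hM1, hMw, hMz⟩ : ∃ M : ℝ, 1 ≤ M ∧ v.abv (nr w) ≤ M ∧
        ∀ u ∈ R, u.abv (nr z) ≤ M := by
      refine ⟨1 + v.abv (nr w) + ∑ u ∈ R, u.abv (nr z), ?_, ?_, ?_⟩
      · have h1 := v.abv.nonneg (nr w)
        have h3 := Finset.sum_nonneg fun u (_ : u ∈ R) => u.abv.nonneg (nr z)
        linarith
      · have h3 := Finset.sum_nonneg fun u (_ : u ∈ R) => u.abv.nonneg (nr z)
        linarith
      · intro u hu
        have h1 := v.abv.nonneg (nr w)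
        have h3 := Finset.single_le_sum (f := fun u => u.abv (nr z))
          (fun u (_ : u ∈ R) => u.abv.nonneg (nr z)) hu
        linarith
    have hMp : 0 < M := by linarith
    obtain ⟨e, he⟩ := weakP (insert v R) (fun u => if u = v then 0 else 1)
      (ε := M⁻¹) (by positivity)
    have hMi : M⁻¹ ≤ 1 := inv_le_one_of_one_le₀ hM1
    have hev : v.abv e < M⁻¹ := by
      have := he v (Finset.mem_insert_self _ _)
      simpa using this
    have heR : ∀ u ∈ R, u.abv (e - 1) < M⁻¹ := by
      intro u hu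
      have := he u (Finset.mem_insert_of_mem hu)
      rwa [if_neg (fun h : u = v => hv (h ▸ hu))] at this
    have hsq : ∀ x : ℝ, 0 ≤ x → x < M⁻¹ → x ^ 2 * M ≤ 1 := by
      intro x hx0 hx
      have h1 : x * M ≤ 1 := by
        calc x * M ≤ M⁻¹ * M := by gcongr
          _ = 1 := inv_mul_cancel₀ hMp.ne'
      have h3 : x ≤ 1 := hx.le.trans hMi
      nlinarith
    refine ⟨e • w + (1 - e) • z, ?_, ?_⟩
    · rw [tr_add', tr_smul', tr_smul', hw, hz]
      ring
    · intro u hu
      refine (hU u hu _ _).trans (max_le ?_ ?_)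
      · rw [nr_smul', map_mul, map_pow]
        rcases Finset.mem_insert.mp hu with rfl | hu'
        · calc u.abv e ^ 2 * u.abv (nr w) ≤ u.abv e ^ 2 * M := by
                gcongr
            _ ≤ 1 := hsq _ (u.abv.nonneg _) hev
        · have h1 : u.abv e ≤ 1 := by
            have e1 : e = (e - 1) + 1 := by ring
            rw [e1]
            exact abv_add_le u ((heR u hu').le.trans hMi) (by rw [map_one])
          exact mul_le_one₀ (pow_le_one₀ (u.abv.nonneg _) h1) (u.abv.nonneg _) (hwR u hu')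
      · rw [nr_smul', map_mul, map_pow]
        rcases Finset.mem_insert.mp hu with rfl | hu'
        · have h1 : u.abv (1 - e) ≤ 1 :=
            abv_sub_le' u (by rw [map_one]) (hev.le.trans hMi)
          exact mul_le_one₀ (pow_le_one₀ (u.abv.nonneg _) h1) (u.abv.nonneg _) hzv
        · have h1 : u.abv (1 - e) < M⁻¹ := by
            rw [AbsoluteValue.map_sub]
            exact heR u hu'
          calc u.abv (1 - e) ^ 2 * u.abv (nr z) ≤ u.abv (1 - e) ^ 2 * M := by
                gcongr
                exact hMz u hu'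
            _ ≤ 1 := hsq _ (u.abv.nonneg _) h1

end loc

end Vale.Agent.P011.H889.C2
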