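import Vale.Agent.P011.H889.C2.DecC

/-!
# The reduced norm is ultrametric at the ramified places (step D of module M5)
-/

open Module

set_option linter.unusedSectionVars false
set_option linter.unusedVariables false

namespace Vale.Agent.P011.H889.C2

open Vale.Agent.P011.H738 Vale.Agent.P011.H271 Vale.Agent.P011.Hey Vale.Agent.P011.H477.C2
open Vale.Agent.P011.H706.C2
open Vale.Agent.P011.H973.PF (weakP abv_add_lt abv_sub_lt abv_add_le abv_sub_le' abv_eq_of_sub_lt)

/-- The norm form is anisotropic if it does not represent `b`. -/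
theorem nf_ani {L : Type*} [Field L] (h2 : (2 : L) = 0) {a b : L}
    (hR : ¬ ∃ x y : L, nf a x y = b) {x y : L} (h : nf a x y = 0) : x = 0 ∧ y = 0 := by
  by_cases hy : y = 0
  · subst hy
    refine ⟨?_, rfl⟩
    have : x ^ 2 = 0 := by simp only [nf] at h; linear_combination h
    exact pow_eq_zero_iff two_ne_zero |>.mp this
  · exfalso
    refine hR (rep_of_root (a := a) ?_ ⟨-(x / y), ?_⟩)
    · intro h3
      have h4 : (1 : L) = 0 := by linear_combination h3 + 2 * a * h2
      exact one_ne_zero h4
    · simp only [nf] at h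
      field_simp
      linear_combination h

/-- The quaternary form is anisotropic if `nf a` does not represent `b`. -/
theorem quat_ani {L : Type*} [Field L] (h2 : (2 : L) = 0) {a b : L}
    (hR : ¬ ∃ x y : L, nf a x y = b) {x0 x1 x2 x3 : L} (h : nf a x0 x1 = b * nf a x2 x3) :
    (x0 = 0 ∧ x1 = 0) ∧ (x2 = 0 ∧ x3 = 0) := by
  by_cases hN : nf a x2 x3 = 0
  · rw [hN, mul_zero] at h
    exact ⟨nf_ani h2 hR h, nf_ani h2 hR hN⟩
  · exfalso
    refine hR ⟨(x0 * x2 - a * x1 * x3) / nf a x2 x3,
      (x0 * x3 + x1 * x2 + x1 * x3) / nf a x2 x3, ?_⟩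
    have h1 := nf_mul a x0 x1 x2 x3
    have h3 : nf a ((x0 * x2 - a * x1 * x3) / nf a x2 x3)
        ((x0 * x3 + x1 * x2 + x1 * x3) / nf a x2 x3) =
        nf a (x0 * x2 - a * x1 * x3) (x0 * x3 + x1 * x2 + x1 * x3) / nf a x2 x3 ^ 2 := by
      generalize nf a x2 x3 = N at hN ⊢
      simp only [nf]
      field_simp
    rw [h3, ← h1, h]
    field_simp

section loc

variable {F : Type} [Field F] [GFF F] (h2 : (2 : F) = 0) {a b : F} {v : Place F}
  (hR : Ram a b v)

include h2 hR

/-- The trace is small if the norm is small. -/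
theorem tr_le (z : Q2 a b) : v.abv (tr z) ^ 2 ≤ v.abv (nr z) := by
  by_contra hcon
  rw [not_le] at hcon
  have ht : tr z ≠ 0 := by
    intro h
    rw [h, map_zero] at hcon
    have := v.abv.nonneg (nr z)
    norm_num at hcon
    linarith
  have htp : 0 < v.abv (tr z) := v.abv.pos ht
  obtain ⟨α, hα⟩ := exists_root_place (P := v) (a := nr z / tr z ^ 2) (by
    rw [map_div₀, map_pow, div_lt_one (by positivity)]
    exact hcon)
  have h2v : (2 : v.comp) = 0 := by
    rw [← map_ofNat (algebraMap F v.comp) 2, h2, map_zero]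
  have htv : algebraMap F v.comp (tr z) ≠ 0 := (_root_.map_ne_zero _).mpr ht
  have hlam : (α * algebraMap F v.comp (tr z)) ^ 2 -
      algebraMap F v.comp (tr z) * (α * algebraMap F v.comp (tr z)) +
      algebraMap F v.comp (nr z) = 0 := by
    rw [map_div₀, map_pow] at hα
    field_simp at hα
    linear_combination hα
  have hq := quat_ani h2v hR (x0 := algebraMap F v.comp z.re - α * algebraMap F v.comp (tr z))
    (x1 := algebraMap F v.comp z.imI) (x2 := algebraMap F v.comp z.imJ)
    (x3 := algebraMap F v.comp z.imK) (by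
      have e1 : algebraMap F v.comp (nr z) = nf (algebraMap F v.comp a)
          (algebraMap F v.comp z.re) (algebraMap F v.comp z.imI) - algebraMap F v.comp b *
          nf (algebraMap F v.comp a) (algebraMap F v.comp z.imJ)
            (algebraMap F v.comp z.imK) := by
        simp only [nr, map_sub, map_mul, nf_map]
      have e2 : algebraMap F v.comp (tr z) = 2 * algebraMap F v.comp z.re +
          algebraMap F v.comp z.imI := by
        simp only [tr, map_add, map_mul, map_ofNat]
      rw [e1] at hlam
      generalize hlmd : α * algebraMap F v.comp (tr z) = l at hlam ⊢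
      rw [e2] at hlam
      simp only [nf] at hlam ⊢
      linear_combination hlam)
  have h3 : z.imI = 0 := by
    have := hq.1.2
    rwa [map_eq_zero] at this
  apply ht
  simp only [tr, h2, h3, zero_mul, add_zero]

/-- **(D)** The reduced norm is ultrametric at a ramified place. -/
theorem nr_ultra (x y : Q2 a b) :
    v.abv (nr (x + y)) ≤ max (v.abv (nr x)) (v.abv (nr y)) := by
  rw [nr_add']
  refine abv_add_le v (v.nonarch _ _) ?_
  have h := tr_le h2 hR (x * star y)
  rw [nr_mul', nr_star', map_mul] at h
  have h1 : v.abv (nr x) * v.abv (nr y) ≤ (max (v.abv (nr x)) (v.abv (nr y))) ^ 2 := by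
    rw [sq]
    exact mul_le_mul (le_max_left _ _) (le_max_right _ _) (v.abv.nonneg _)
      (le_max_of_le_left (v.abv.nonneg _))
  exact (pow_le_pow_iff_left₀ (v.abv.nonneg _) (le_max_of_le_left (v.abv.nonneg _))
    two_ne_zero).mp (h.trans h1)

theorem nr_ultra_eq {x y : Q2 a b} (h : v.abv (nr y) < v.abv (nr x)) :
    v.abv (nr (x + y)) = v.abv (nr x) := by
  apply le_antisymm
  · exact (nr_ultra h2 hR x y).trans (max_le le_rfl h.le)
  · have h1 := nr_ultra h2 hR (x + y) ((-1 : F) • y)
    have e : x + y + (-1 : F) • y = x := by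
      rw [neg_smul, one_smul, add_neg_cancel_right]
    rw [e, nr_smul'] at h1
    have e1 : ((-1 : F)) ^ 2 * nr y = nr y := by ring
    rw [e1] at h1
    by_contra hcon
    rw [not_le] at hcon
    exact absurd h1 (not_le.mpr (max_lt hcon h))

end loc

end Vale.Agent.P011.H889.C2
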